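import Vale.Agent.P183.H288.Defs

/-!
Closure theorems for the class of representable lattices: subdirect products, extensions whose
fibres are intervals of a representable lattice, extensions with chain fibres and with
distributive fibres.
-/

namespace Vale.Agent.Results.P183.ChainFibres

open Vale.Agent.P183 Vale.Agent.P183.H288

theorem result :
    -- (1) every lattice with at most seven elements is representable
    (∀ (L : Type) [Lattice L] [Finite L] [Nonempty L], Nat.card L ≤ 7 → Representable L) ∧
    -- (2) subdirect products of lattices with at most seven elements
    (∀ (L : Type) [Lattice L] [Finite L] [Nonempty L],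
      (∀ a b : L, a ≠ b → ∃ (K : Type) (_ : Lattice K) (_ : Finite K) (f : LatticeHom L K),
        Nat.card K ≤ 7 ∧ f a ≠ f b) → Representable L) ∧
    -- (3) closure under subdirect products
    (∀ (L : Type) [Lattice L] [Finite L] [Nonempty L],
      (∀ a b : L, a ≠ b → ∃ (K : Type) (_ : Lattice K) (f : LatticeHom L K),
        Function.Surjective f ∧ Representable K ∧ f a ≠ f b) → Representable L) ∧
    -- (4) inflations of convex sets
    (∀ (K S : Type) [PartialOrder K] [PartialOrder S] (C : Set K), C.OrdConnected →
      Representable K → Representable S → Representable (Inflate K S C)) ∧
    -- (5) congruence normal lattices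
    (∀ (L : Type) [PartialOrder L], CongruenceNormal L → Representable L) ∧
    -- (6) extensions of chains by a group interval and distributive lattices
    (∀ (L K : Type) [Lattice L] [Finite L] [Nonempty L] [Lattice K] (f : LatticeHom L K),
      Function.Surjective f → (∀ p q : K, p ≤ q ∨ q ≤ p) → GroupDistribFibres f →
      Representable L) ∧
    -- (7)-(10) extensions of a representable lattice `K`
    (∀ (L K : Type) [Lattice L] [Lattice K] (f : LatticeHom L K), Function.Surjective f →
      Representable K →
      -- fibres are intervals of a representable lattice
      (∀ (M : Type) [Lattice M] (P : L → M), IntervalFibres f P → Representable M →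
        Representable L) ∧
      -- fibres with at most two elements
      (TwoFibres f → Representable L) ∧
      -- chain fibres
      (Finite L → ChainFibres f → Representable L) ∧
      -- least fibre a group interval, other fibres distributive
      (Finite L → GroupDistribFibres f → DistribLinks f → Representable L)) :=
  ⟨fun L _ _ _ h => representable_card_le_seven L h,
    fun L _ _ _ h => representable_of_separated_seven L h,
    fun L _ _ _ h => representable_of_separated L h,
    fun _ _ _ _ _ hC hK hS => Representable.inflate hC hK hS,
    fun _ _ h => h.representable,
    fun _ _ _ _ _ _ _ hf hK h => rep_overChain hf hK h,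
    fun _ _ _ _ f hf hK => ⟨fun _ _ _ h hM => rep_intervalFibres hf hK h hM,
      fun h => Representable.of_two_fiber f hf h hK,
      fun _ h => H330.ext_chain f hf h hK,
      fun _ h hc => rep_groupDistrib hf hK h hc⟩⟩

end Vale.Agent.Results.P183.ChainFibres
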