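import Vale.Agent.P183.H330D.Reduce

/-!
The class of representable lattices is closed under extensions with distributive fibres.
-/

namespace Vale.Agent.Results.P183.DistributiveFibres

open Vale.Agent.P183 Vale.Agent.P183.H330D

theorem result :
    -- (1) a finite lattice with a congruence all of whose classes are distributive is
    -- representable as soon as the quotient is representable
    (∀ (L K : Type) [Lattice L] [Finite L] [Lattice K] (f : LatticeHom L K),
      Function.Surjective f → DistribFibres f → Representable K → Representable L) ∧
    -- (2) the least fibre may be an arbitrary interval `[H, G]` of a finite group if, outside of
    -- it, every element is incomparable with at most one element of its own fibre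
    (∀ (L K : Type) [Lattice L] [Finite L] [Lattice K] (f : LatticeHom L K),
      Function.Surjective f → Representable K → IsGroupInterval {l : L // IsMin (f l)} →
      NarrowAboveLeast f → Representable L) ∧
    -- (3) or if the other fibres are distributive and the lower covers in `K` form trees
    (∀ (L K : Type) [Lattice L] [Finite L] [Lattice K] (f : LatticeHom L K),
      Function.Surjective f → Representable K → TreeLike K →
      IsGroupInterval {l : L // IsMin (f l)} → DistribAboveLeast f → Representable L) ∧
    -- (4) every finite lattice with a series of congruences with distributive classes is
    -- representable
    (∀ (L : Type) [Lattice L], DistribSeries L → Representable L) ∧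
    -- (5) the problem is equivalent to its restriction to the subdirectly irreducible lattices
    -- in which every nonzero congruence has a class which is not distributive
    ((∀ (L : Type) [Lattice L] [Finite L] [Nonempty L], Representable L) ↔
      ∀ (L : Type) [Lattice L] [Finite L] [Nonempty L], Reduced L → Representable L) :=
  ⟨fun _ _ _ _ _ f hf hd hK => rep_of_distribFibres f hf hd hK,
    fun _ _ _ _ _ f hf hK hg hn => rep_of_narrow f hf hK hg hn,
    fun _ _ _ _ _ f hf hK hT hg hn => rep_of_tree f hf hK hT hg hn,
    fun L _ h => rep_of_series L h, reduction⟩

end Vale.Agent.Results.P183.DistributiveFibres
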