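import Vale.Agent.P183.H288.Small
import Vale.Agent.P183.H288.Four
import Vale.Agent.P183.H330D.Reduce

/-!
Lattices with at most eight elements, and closure theorems for the class of representable
lattices.
-/

namespace Vale.Agent.Results.P183.EightElements

open Vale.Agent.P183 Vale.Agent.P183.H288 Vale.Agent.P183.H330D

theorem result :
    -- (1) every lattice with at most eight elements that is not simple is representable
    (∀ (L : Type) [Lattice L] [Finite L] [Nonempty L], Nat.card L ≤ 8 → NonSimple L →
      Representable L) ∧
    -- (2) all lattices with at most eight elements are representable, with at most four possible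
    -- exceptions up to isomorphism and duality
    (∃ (E : Fin 4 → Type) (_ : ∀ i, Lattice (E i)),
      ∀ (L : Type) [Lattice L] [Finite L] [Nonempty L], Nat.card L ≤ 8 →
        Representable L ∨ ∃ i, Nonempty (L ≃o E i) ∨ Nonempty (L ≃o (E i)ᵒᵈ)) ∧
    -- (3) every lattice with at most seven elements is representable
    (∀ (L : Type) [Lattice L] [Finite L] [Nonempty L], Nat.card L ≤ 7 → Representable L) ∧
    -- (4) closure under subdirect products
    (∀ (L : Type) [Lattice L] [Finite L] [Nonempty L],
      (∀ a b : L, a ≠ b → ∃ (K : Type) (_ : Lattice K) (f : LatticeHom L K),
        Function.Surjective f ∧ Representable K ∧ f a ≠ f b) → Representable L) ∧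
    -- (5) inflations of convex sets
    (∀ (K S : Type) [PartialOrder K] [PartialOrder S] (C : Set K), C.OrdConnected →
      Representable K → Representable S → Representable (Inflate K S C)) ∧
    -- (6)-(10) extensions of a representable lattice `K`
    (∀ (L K : Type) [Lattice L] [Lattice K] (f : LatticeHom L K), Function.Surjective f →
      Representable K →
      -- (6) fibres are intervals of a representable lattice
      (∀ (M : Type) [Lattice M] (P : L → M), IntervalFibres f P → Representable M →
        Representable L) ∧
      -- (7) all fibres distributive
      (Finite L → DistribFibres f → Representable L) ∧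
      -- (8) least fibre a group interval, all others narrow
      (Finite L → IsGroupInterval {l : L // IsMin (f l)} → NarrowAboveLeast f →
        Representable L) ∧
      -- (9) least fibre a group interval, all others distributive, tree-like covers in `K`
      (Finite L → IsGroupInterval {l : L // IsMin (f l)} → DistribAboveLeast f → TreeLike K →
        Representable L) ∧
      -- (10) least fibre a group interval, all others distributive, distributive links
      (Finite L → IsGroupInterval {l : L // IsMin (f l)} → DistribAboveLeast f →
        DistribLinks f → Representable L)) ∧
    -- (11) at most two lower covers are tree-like covers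
    (∀ (K : Type) [Lattice K],
      (∀ t p q r : K, p ⋖ t → q ⋖ t → r ⋖ t → p = q ∨ q = r ∨ p = r) → TreeLike K) ∧
    -- (12) every finite lattice with a series of congruences with distributive classes is
    -- representable
    (∀ (L : Type) [Lattice L], DistribSeries L → Representable L) ∧
    -- (13) the problem is equivalent to its restriction to the subdirectly irreducible lattices
    -- in which every nonzero congruence has a class which is not distributive
    ((∀ (L : Type) [Lattice L] [Finite L] [Nonempty L], Representable L) ↔
      ∀ (L : Type) [Lattice L] [Finite L] [Nonempty L], Reduced L → Representable L) :=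
  ⟨fun L _ _ _ h hs => rep_nonSimple L h hs,
    four_exceptions,
    fun L _ _ _ h => representable_card_le_seven L h,
    fun L _ _ _ h => representable_of_separated L h,
    fun _ _ _ _ _ hC hK hS => Representable.inflate hC hK hS,
    fun _ _ _ _ f hf hK => ⟨fun _ _ _ h hM => rep_intervalFibres hf hK h hM,
      fun _ h => rep_of_distribFibres f hf h hK,
      fun _ hg h => rep_of_narrow f hf hK hg h,
      fun _ hg h hT => rep_of_tree f hf hK hT hg h,
      fun _ hg h hc => rep_groupDistrib hf hK ⟨hg, h⟩ hc⟩,
    fun _ _ h t => H330T.treeCovers_of_two (h t),
    fun L _ h => rep_of_series L h,
    reduction⟩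

end Vale.Agent.Results.P183.EightElements
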