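import Vale.Agent.P183.H330M.Reduce

/-!
Extensions of representable lattices whose fibres are distributive or intervals `[H, G]` of finite
groups.
-/

namespace Vale.Agent.Results.P183.MixedFibres

open Vale.Agent.P183 Vale.Agent.P183.H330D Vale.Agent.P183.H330M

theorem result :
    -- (1) extensions with mixed fibres
    (∀ (L K : Type) [Lattice L] [Finite L] [Lattice K] (f : LatticeHom L K),
      Function.Surjective f → Representable K → H330M.MixedFibres f → Representable L) ∧
    -- (2) the same for the dual orders
    (∀ (L K : Type) [Lattice L] [Finite L] [Lattice K] (f : LatticeHom L K),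
      Function.Surjective f → Representable K → H330M.MixedFibres (LatticeHom.dual f) →
      Representable L) ∧
    -- (3) the least fibre is an arbitrary interval `[H, G]` with narrow traces, all the other
    -- fibres are distributive
    (∀ (L K : Type) [Lattice L] [Finite L] [Lattice K] (f : LatticeHom L K),
      Function.Surjective f → Representable K → ∀ b : K, (∀ k, b ≤ k) →
      IsGroupInterval {l : L // f l = b} → (∀ t, t ≠ b → DistribOver f t) → NarrowTraces f b →
      Representable L) ∧
    -- (4) the problem is equivalent to its restriction to the irreducible lattices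
    ((∀ (L : Type) [Lattice L] [Finite L] [Nonempty L], Representable L) ↔
      ∀ (L : Type) [Lattice L] [Finite L] [Nonempty L], H330M.Irreducible L → Representable L) :=
  ⟨fun _ _ _ _ _ f hf hK h => ext_mixed f hf hK h,
    fun _ _ _ _ _ f hf hK h => ext_mixed_dual f hf hK h,
    fun _ _ _ _ _ f hf hK b hb hg hd hn => ext_mixed f hf hK (mixed_of_least b hb hg hd hn),
    H330M.reduction⟩

end Vale.Agent.Results.P183.MixedFibres
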